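import Vale.Agent.AP4.Main

namespace Vale.Agent.Results.P057.FourTerm

/-- `r₄(N) ≥ N exp(-(2 √(2 log (9/5)) + o(1)) √(log N))`. -/
theorem result (ε : ℝ) (hε : 0 < ε) : ∃ N0 : ℕ, ∀ N : ℕ, N0 ≤ N →
    ∃ A : Finset ℕ, A ⊆ Finset.Icc 1 N ∧
      (∀ a d : ℕ, 0 < d → ¬ (a ∈ A ∧ a + d ∈ A ∧ a + 2 * d ∈ A ∧ a + 3 * d ∈ A)) ∧
      (N : ℝ) * Real.exp (-((2 * √(2 * Real.log (9 / 5)) + ε) * √(Real.log N))) ≤ A.card :=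
  Vale.Agent.AP4.lower ε hε

end Vale.Agent.Results.P057.FourTerm
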